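import Crest.Agent.N111.Grp.ICC

/-!
# Row 111, NOINV: no `Γ`-invariant state on `P²`, `P²*`, or any space of rays of psd matrices.

The space `X` carries a map `q` to nonzero positive semidefinite `3 × 3` matrices
(`q v = v vᵀ` for the projective plane) on which maps `α : X → X` act projectively as
`P ↦ g P gᵀ`.  Twelve elementary matrices give a quantitative paradoxical decomposition:
`∑ i, wt i = 1` and `∑ i k, wt i ∘ α i k ≤ 39 / 10 < 4`.
-/

set_option autoImplicit false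

namespace Crest.Agent.N111

open Matrix

namespace NoInv

lemma sum_four (t : ℝ) : ∑ k : Fin 4, 1 / (1 + (6 * (k : ℕ) + t) ^ 2) ≤ (13 : ℝ) / 10 := by
  have h1 : ∀ s : ℝ, 1 / (1 + s ^ 2) ≤ 1 := fun s =>
    (div_le_one (by positivity)).2 (by nlinarith [sq_nonneg s])
  have h2 : ∀ s : ℝ, 3 ≤ |s| → 1 / (1 + s ^ 2) ≤ 1 / 10 := fun s hs =>
    one_div_le_one_div_of_le (by norm_num) (by nlinarith [sq_abs s, abs_nonneg s])
  have h3 : ∀ s : ℝ, 3 ≤ s → 1 / (1 + s ^ 2) ≤ 1 / 10 := fun s hs => h2 s (hs.trans (le_abs_self s))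
  have h4 : ∀ s : ℝ, s ≤ -3 → 1 / (1 + s ^ 2) ≤ 1 / 10 := fun s hs =>
    h2 s (le_trans (by linarith) (neg_le_abs s))
  simp only [Fin.sum_univ_four, Fin.val_zero, Fin.val_one, Fin.val_two]
  rw [show ((3 : Fin 4) : ℕ) = 3 from rfl]
  push_cast
  rcases le_total (-3) t with a | a
  · linarith [h1 (6 * 0 + t), h3 (6 * 1 + t) (by linarith), h3 (6 * 2 + t) (by linarith),
      h3 (6 * 3 + t) (by linarith)]
  rcases le_total (-9) t with b | b
  · linarith [h4 (6 * 0 + t) (by linarith), h1 (6 * 1 + t), h3 (6 * 2 + t) (by linarith),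
      h3 (6 * 3 + t) (by linarith)]
  rcases le_total (-15) t with c | c
  · linarith [h4 (6 * 0 + t) (by linarith), h4 (6 * 1 + t) (by linarith), h1 (6 * 2 + t),
      h3 (6 * 3 + t) (by linarith)]
  · linarith [h4 (6 * 0 + t) (by linarith), h4 (6 * 1 + t) (by linarith),
      h4 (6 * 2 + t) (by linarith), h1 (6 * 3 + t)]

/-- `g P gᵀ` -/
def cj (g : G) (P : Matrix (Fin 3) (Fin 3) ℝ) : Matrix (Fin 3) (Fin 3) ℝ :=
  (g : Matrix (Fin 3) (Fin 3) ℝ) * P * (g : Matrix (Fin 3) (Fin 3) ℝ)ᵀ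

lemma cj_psd (g : G) {P : Matrix (Fin 3) (Fin 3) ℝ} (hP : P.PosSemidef) : (cj g P).PosSemidef := by
  simpa [cj] using hP.mul_mul_conjTranspose_same (g : Matrix (Fin 3) (Fin 3) ℝ)

lemma cj_tv_diag {i j : Fin 3} (hji : j ≠ i) (b : ℝ) (P : Matrix (Fin 3) (Fin 3) ℝ) (k : Fin 3) :
    cj (tv hji b) P k k
      = P k k + if k = j then b * (P i j + P j i) + b ^ 2 * P i i else 0 := by
  simp only [cj, Matrix.mul_apply, Matrix.transpose_apply, Fin.sum_univ_three, tv_apply]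
  fin_cases i <;> fin_cases j <;> simp at hji <;> fin_cases k <;> simp <;> ring

lemma cj_tv_le {i j : Fin 3} (hji : j ≠ i) (b : ℝ) {P : Matrix (Fin 3) (Fin 3) ℝ}
    (hP : P.PosSemidef) :
    cj (tv hji b) P i i / trace (cj (tv hji b) P) ≤ 1 / (1 + (b + P i j / P i i) ^ 2) := by
  have hs : P j i = P i j := by simpa using hP.1.apply i j
  have hii : cj (tv hji b) P i i = P i i := by rw [cj_tv_diag]; simp [hji.symm]
  rcases (hP.diag_nonneg (i := i)).eq_or_lt with h0 | h0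
  · rw [hii, ← h0]; simp; positivity
  set t := P i j / P i i with ht
  have e : P i j = t * P i i := by rw [ht]; field_simp
  have h1 := (cj_psd (tv hji (-t)) hP).diag_nonneg (i := j)
  rw [cj_tv_diag, if_pos rfl, hs, e] at h1
  have h2 : cj (tv hji b) P i i + cj (tv hji b) P j j ≤ trace (cj (tv hji b) P) := by
    rw [← Finset.sum_pair (f := fun k => cj (tv hji b) P k k) hji.symm]
    exact Finset.sum_le_sum_of_subset_of_nonneg (Finset.subset_univ _)
      fun k _ _ => (cj_psd _ hP).diag_nonneg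
  rw [hii, cj_tv_diag, if_pos rfl, hs, e] at h2
  have h3 : P i i * (1 + (b + t) ^ 2) ≤ trace (cj (tv hji b) P) := by nlinarith
  rw [hii, div_le_div_iff₀ (lt_of_lt_of_le (by positivity) h3) (by positivity)]
  linarith

lemma succ_ne (i : Fin 3) : i + 1 ≠ i := by fin_cases i <;> decide

end NoInv

open NoInv

/-- the weight `P i i / tr P` -/
noncomputable def wt (i : Fin 3) (P : Matrix (Fin 3) (Fin 3) ℝ) : ℝ := P i i / trace P

lemma wt_smul (i : Fin 3) {c : ℝ} (hc : c ≠ 0) (P : Matrix (Fin 3) (Fin 3) ℝ) :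
    wt i (c • P) = wt i P := by
  simp [wt, mul_div_mul_left _ _ hc]

lemma sum_wt {P : Matrix (Fin 3) (Fin 3) ℝ} (h : trace P ≠ 0) : ∑ i, wt i P = 1 := by
  simp only [wt, ← Finset.sum_div]
  exact div_self h

/-- the pointwise paradoxical inequality -/
theorem sum_wt_cj_le {P : Matrix (Fin 3) (Fin 3) ℝ} (hP : P.PosSemidef) (i : Fin 3) :
    ∑ k : Fin 4, wt i (cj (tv (succ_ne i) (6 * (k : ℕ))) P) ≤ 13 / 10 :=
  (Finset.sum_le_sum fun k _ => cj_tv_le (succ_ne i) _ hP).trans (sum_four _)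

section functional

variable {X : Type*} [TopologicalSpace X] (q : X → Matrix (Fin 3) (Fin 3) ℝ)

/-- `wt i ∘ q` as a continuous function -/
noncomputable def wtC (hc : Continuous q) (h0 : ∀ x, trace (q x) ≠ 0) (i : Fin 3) : C(X, ℝ) :=
  ⟨fun x => wt i (q x), ((continuous_apply_apply i i).comp hc).div hc.matrix_trace h0⟩

/-- **NOINV, quantitative form.** A positive functional that is `ε`-invariant under maps acting
as the integral elementary matrices has mass at most `120 ε`. -/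
theorem noinv_le (hc : Continuous q) (hq : ∀ x, (q x).PosSemidef) (h0 : ∀ x, trace (q x) ≠ 0)
    (m : C(X, ℝ) →ₗ[ℝ] ℝ) (hm : ∀ f, 0 ≤ f → 0 ≤ m f) {ε : ℝ}
    (h : ∀ (i j : Fin 3) (hij : i ≠ j) (b : ℕ), b ≤ 18 → ∃ α : C(X, X),
      (∀ x, ∃ c : ℝ, c ≠ 0 ∧ q (α x) = c • cj (tv hij b) (q x)) ∧
      ∀ k, m (wtC q hc h0 k) ≤ m ((wtC q hc h0 k).comp α) + ε) : m 1 ≤ 120 * ε := by
  choose α hα hε using fun (i : Fin 3) (k : Fin 4) => h (i + 1) i (succ_ne i) (6 * k) (by omega)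
  have h1 : ∑ i, wtC q hc h0 i = 1 := by
    ext x
    simp only [ContinuousMap.coe_sum, Finset.sum_apply, ContinuousMap.one_apply]
    exact sum_wt (h0 x)
  have h2 : ∀ i, 4 * m (wtC q hc h0 i) ≤ 13 / 10 * m 1 + 4 * ε := fun i => by
    have a := hm ((13 / 10 : ℝ) • 1 - ∑ k, (wtC q hc h0 i).comp (α i k))
      (ContinuousMap.le_def.2 fun x => ?_)
    · rw [map_sub, map_smul, map_sum, Fin.sum_univ_four, smul_eq_mul] at a
      linarith [hε i 0 i, hε i 1 i, hε i 2 i, hε i 3 i]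
    · have := sum_wt_cj_le (hq x) i
      simp only [ContinuousMap.coe_sub, ContinuousMap.coe_smul, ContinuousMap.coe_sum,
        ContinuousMap.coe_zero, Pi.zero_apply, Pi.sub_apply, Pi.smul_apply, Finset.sum_apply,
        ContinuousMap.coe_one, Pi.one_apply, smul_eq_mul, mul_one, ContinuousMap.comp_apply,
        sub_nonneg]
      refine le_trans (le_of_eq (Finset.sum_congr rfl fun k _ => ?_)) this
      obtain ⟨c, hc0, e⟩ := hα i k x
      show wt i (q (α i k x)) = _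
      rw [e, wt_smul i hc0]; push_cast; rfl
  have h3 : m 1 = ∑ i, m (wtC q hc h0 i) := by rw [← map_sum, h1]
  rw [Fin.sum_univ_three] at h3
  linarith [h2 0, h2 1, h2 2]

/-- **NOINV**, action through `g P gᵀ` (e.g. `P²`, `q v = v vᵀ`). -/
theorem noinv (hc : Continuous q) (hq : ∀ x, (q x).PosSemidef) (h0 : ∀ x, trace (q x) ≠ 0)
    (a : Γ → C(X, X)) (ha : ∀ γ x, ∃ c : ℝ, c ≠ 0 ∧ q (a γ x) = c • cj (ι γ) (q x))
    (m : C(X, ℝ) →ₗ[ℝ] ℝ) (hm : ∀ f, 0 ≤ f → 0 ≤ m f) (hi : ∀ γ f, m (f.comp (a γ)) = m f) :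
    m 1 = 0 := by
  refine le_antisymm ?_ (hm 1 zero_le_one)
  simpa using noinv_le q hc hq h0 m hm (ε := 0) fun i j hij b _ =>
    ⟨a (tz hij b), fun x => by simpa using ha (tz hij b) x, fun k => by simp [hi]⟩

/-- the contragredient `g ↦ g⁻ᵀ` of an elementary matrix -/
lemma transpose_tv_inv {i j : Fin 3} (hij : i ≠ j) (b : ℝ) :
    Matrix.SpecialLinearGroup.transpose (tv hij.symm (-b))⁻¹ = tv hij b := by
  ext k l
  rw [tv_inv, neg_neg]
  show tv hij.symm b l k = _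
  rw [tv_apply, tv_apply]
  simp only [eq_comm (a := l) (b := k), and_comm]

/-- **NOINV**, contragredient action (e.g. `P²*`): `q (a γ x) ∝ γ⁻ᵀ (q x) γ⁻¹`. -/
theorem noinv_dual (hc : Continuous q) (hq : ∀ x, (q x).PosSemidef) (h0 : ∀ x, trace (q x) ≠ 0)
    (a : Γ → C(X, X))
    (ha : ∀ γ x, ∃ c : ℝ, c ≠ 0 ∧
      q (a γ x) = c • cj (Matrix.SpecialLinearGroup.transpose (ι γ)⁻¹) (q x))
    (m : C(X, ℝ) →ₗ[ℝ] ℝ) (hm : ∀ f, 0 ≤ f → 0 ≤ m f) (hi : ∀ γ f, m (f.comp (a γ)) = m f) :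
    m 1 = 0 := by
  refine le_antisymm ?_ (hm 1 zero_le_one)
  simpa using noinv_le q hc hq h0 m hm (ε := 0) fun i j hij b _ =>
    ⟨a (tz hij.symm (-b)), fun x => by
      have := ha (tz hij.symm (-b)) x
      rw [ι_tz] at this
      push_cast at this
      rwa [transpose_tv_inv hij] at this, fun k => by simp [hi]⟩

/-- the real part of a complex functional on real functions -/
noncomputable def reFun (m : C(X, ℂ) →ₗ[ℂ] ℂ) : C(X, ℝ) →ₗ[ℝ] ℝ where
  toFun f := (m ⟨fun x => (f x : ℂ), by fun_prop⟩).re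
  map_add' f g := by
    rw [← Complex.add_re, ← map_add]; congr 2; ext x; simp
  map_smul' c f := by
    rw [RingHom.id_apply, smul_eq_mul, ← Complex.re_ofReal_mul, ← smul_eq_mul, ← map_smul]
    congr 2; ext x; simp

/-- **NOINV** for complex functionals positive on squares `star f * f`; direct or contragredient
action. -/
theorem noinv_complex (hc : Continuous q) (hq : ∀ x, (q x).PosSemidef)
    (h0 : ∀ x, trace (q x) ≠ 0) (a : Γ → C(X, X))
    (ha : (∀ γ x, ∃ c : ℝ, c ≠ 0 ∧ q (a γ x) = c • cj (ι γ) (q x)) ∨ ∀ γ x, ∃ c : ℝ, c ≠ 0 ∧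
      q (a γ x) = c • cj (Matrix.SpecialLinearGroup.transpose (ι γ)⁻¹) (q x))
    (m : C(X, ℂ) →ₗ[ℂ] ℂ) (hm : ∀ f, 0 ≤ (m (star f * f)).re)
    (hi : ∀ γ f, m (f.comp (a γ)) = m f) : (m 1).re = 0 := by
  have p : ∀ f, 0 ≤ f → 0 ≤ reFun m f := fun f hf => by
    have := hm ⟨fun x => (Real.sqrt (f x) : ℂ), by fun_prop⟩
    refine le_of_le_of_eq this ?_
    show (m _).re = (m _).re
    congr 2; ext x
    simp [← Complex.ofReal_mul, Real.mul_self_sqrt (show 0 ≤ f x from hf x)]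
  have i : ∀ γ f, reFun m (f.comp (a γ)) = reFun m f := fun γ f =>
    congrArg Complex.re (hi γ ⟨fun x => (f x : ℂ), by fun_prop⟩)
  have e : reFun m 1 = (m 1).re := by
    show (m _).re = _
    congr 2
  rw [← e]
  exact ha.elim (fun h => noinv q hc hq h0 a h _ p i) fun h => noinv_dual q hc hq h0 a h _ p i

end functional

/-! ### rank one matrices -/

lemma cj_vecMulVec (g : G) (v : Fin 3 → ℝ) :
    cj g (vecMulVec v v) = vecMulVec (g.1 *ᵥ v) (g.1 *ᵥ v) := by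
  ext i j
  simp only [cj, Matrix.mul_apply, Matrix.transpose_apply, vecMulVec_apply, mulVec, dotProduct,
    Fin.sum_univ_three]
  ring

lemma psd_vecMulVec (v : Fin 3 → ℝ) : (vecMulVec v v).PosSemidef := by
  simpa using Matrix.posSemidef_vecMulVec_self_star v

lemma trace_vecMulVec_ne {v : Fin 3 → ℝ} (hv : v ≠ 0) : trace (vecMulVec v v) ≠ 0 := by
  rw [trace_vecMulVec]
  exact fun h => hv (dotProduct_self_eq_zero.1 h)

/-- **NOINV** for a space mapping to nonzero vectors up to scalars (sphere, `P²`). -/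
theorem noinv_vec {X : Type*} [TopologicalSpace X] (v : X → Fin 3 → ℝ) (hc : Continuous v)
    (h0 : ∀ x, v x ≠ 0) (a : Γ → C(X, X))
    (ha : (∀ γ x, ∃ c : ℝ, c ≠ 0 ∧ v (a γ x) = c • (ι γ).1 *ᵥ v x) ∨ ∀ γ x, ∃ c : ℝ, c ≠ 0 ∧
      v (a γ x) = c • (Matrix.SpecialLinearGroup.transpose (ι γ)⁻¹).1 *ᵥ v x)
    (m : C(X, ℂ) →ₗ[ℂ] ℂ) (hm : ∀ f, 0 ≤ (m (star f * f)).re)
    (hi : ∀ γ f, m (f.comp (a γ)) = m f) : (m 1).re = 0 := by
  have key : ∀ (g : G) (x y : X), (∃ c : ℝ, c ≠ 0 ∧ v y = c • g.1 *ᵥ v x) →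
      ∃ c : ℝ, c ≠ 0 ∧ vecMulVec (v y) (v y) = c • cj g (vecMulVec (v x) (v x)) := by
    rintro g x y ⟨c, hc0, e⟩
    refine ⟨c * c, mul_ne_zero hc0 hc0, ?_⟩
    rw [cj_vecMulVec, e, smul_vecMulVec, vecMulVec_smul, smul_smul]
  exact noinv_complex (fun x => vecMulVec (v x) (v x)) (hc.matrix_vecMulVec hc)
    (fun x => psd_vecMulVec _) (fun x => trace_vecMulVec_ne (h0 x)) a
    (ha.imp (fun h γ x => key _ _ _ (h γ x)) fun h γ x => key _ _ _ (h γ x)) m hm hi

end Crest.Agent.N111
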