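import Crest.Agent.N111.Grp.ICC

/-!
# Row 111, COUNT: lattice points contracting a given vector, and the size of a wall window.

If `g, g'` have entries `≤ A` and both contract a vector `β` by the factor `B`, then `g' g⁻¹` has
entries `≤ 6 A² B`.  With `A ≈ T`, `B ≈ T⁻²` this gives `O(1)` lattice points per direction and
`O(T⁶)` in total.
-/

set_option autoImplicit false

namespace Crest.Agent.N111

open Matrix Finset

/-- the number of lattice points in a box -/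
noncomputable def nbox (R : ℝ) : ℕ := {γ : Γ | ι γ ∈ box R}.ncard

lemma box_mono {R R' : ℝ} (h : R ≤ R') : box R ⊆ box R' := fun _ hg i j => (hg i j).trans h

lemma nbox_mono {R R' : ℝ} (h : R ≤ R') : nbox R ≤ nbox R' :=
  Set.ncard_le_ncard (fun _ hγ => box_mono h hγ) (finite_box R')

lemma card_le_nbox {R : ℝ} {α : Type*} (s : Finset α) (f : α → Γ) (hf : Set.InjOn f s)
    (h : ∀ a ∈ s, ι (f a) ∈ box R) : #s ≤ nbox R := by
  rw [← Set.ncard_coe_finset]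
  exact Set.ncard_le_ncard_of_injOn f h hf (finite_box R)

lemma inv_entry (g : G) (i j : Fin 3) :
    g⁻¹ i j = g (j + 1) (i + 1) * g (j + 2) (i + 2) - g (j + 1) (i + 2) * g (j + 2) (i + 1) := by
  have : g⁻¹ i j = adjugate g.1 i j := rfl
  rw [this, adjugate_fin_three]
  fin_cases i <;> fin_cases j <;> simp <;> ring

lemma mulVec_entry (g : G) (β : Fin 3 → ℝ) (k : Fin 3) :
    (g.1 *ᵥ β) k = g k 0 * β 0 + g k 1 * β 1 + g k 2 * β 2 := by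
  simp [mulVec, dotProduct, Fin.sum_univ_three]

lemma norm_mulVec_le {g : G} {A : ℝ} (hg : g ∈ box A) (β : Fin 3 → ℝ) :
    ‖g.1 *ᵥ β‖ ≤ 3 * A * ‖β‖ := by
  have hA : 0 ≤ A := (abs_nonneg _).trans (hg 0 0)
  refine (pi_norm_le_iff_of_nonneg (by positivity)).2 fun k => ?_
  have h : ∀ l, |g k l * β l| ≤ A * ‖β‖ := fun l => by
    rw [abs_mul]; exact mul_le_mul (hg k l) (norm_le_pi_norm β l) (abs_nonneg _) hA
  rw [mulVec_entry, Real.norm_eq_abs]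
  linarith [abs_add_three (g k 0 * β 0) (g k 1 * β 1) (g k 2 * β 2), h 0, h 1, h 2]

lemma inv_mem_box {g : G} {A : ℝ} (hg : g ∈ box A) : g⁻¹ ∈ box (2 * A ^ 2) := fun i j => by
  have hA : 0 ≤ A := (abs_nonneg _).trans (hg 0 0)
  have h : ∀ a b c d, |g a b * g c d| ≤ A ^ 2 := fun a b c d => by
    rw [abs_mul, sq]; exact mul_le_mul (hg a b) (hg c d) (abs_nonneg _) hA
  rw [inv_entry]
  linarith [abs_sub (g (j + 1) (i + 1) * g (j + 2) (i + 2)) (g (j + 1) (i + 2) * g (j + 2) (i + 1)),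
    h (j + 1) (i + 1) (j + 2) (i + 2), h (j + 1) (i + 2) (j + 2) (i + 1)]

lemma mul_mem_box {g h : G} {A B : ℝ} (hg : g ∈ box A) (hh : h ∈ box B) :
    g * h ∈ box (3 * A * B) := fun i j => by
  have hA : 0 ≤ A := (abs_nonneg _).trans (hg 0 0)
  have e : ∀ l, |g i l * h l j| ≤ A * B := fun l => by
    rw [abs_mul]; exact mul_le_mul (hg i l) (hh l j) (abs_nonneg _) hA
  rw [mul_entry]
  linarith [abs_add_three (g i 0 * h 0 j) (g i 1 * h 1 j) (g i 2 * h 2 j), e 0, e 1, e 2]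

lemma mul_inv_entry (g g' : G) (β : Fin 3 → ℝ) (i k l : Fin 3) :
    β i * (g' * g⁻¹) k l
      = (g'.1 *ᵥ β) k * (g (l + 1) (i + 1) * g (l + 2) (i + 2) - g (l + 1) (i + 2) * g (l + 2) (i + 1))
      + g' k (i + 1) * (g (l + 1) (i + 2) * (g.1 *ᵥ β) (l + 2) - (g.1 *ᵥ β) (l + 1) * g (l + 2) (i + 2))
      + g' k (i + 2) * ((g.1 *ᵥ β) (l + 1) * g (l + 2) (i + 1) - g (l + 1) (i + 1) * (g.1 *ᵥ β) (l + 2)) := by
  rw [mul_entry, inv_entry, inv_entry, inv_entry]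
  simp only [mulVec_entry]
  fin_cases i <;> simp <;> ring

lemma exists_norm_eq (β : Fin 3 → ℝ) : ∃ i, |β i| = ‖β‖ := by
  obtain ⟨i, -, hi⟩ := exists_max_image univ (fun i => |β i|) univ_nonempty
  exact ⟨i, le_antisymm (norm_le_pi_norm β i)
    ((pi_norm_le_iff_of_nonneg (abs_nonneg _)).2 fun j => hi j (mem_univ j))⟩

/-- **COUNT, key estimate.** -/
theorem mul_inv_mem_box {g g' : G} {A B : ℝ} {β : Fin 3 → ℝ} (hβ : β ≠ 0) (hg : g ∈ box A)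
    (hg' : g' ∈ box A) (h : ‖g.1 *ᵥ β‖ ≤ B * ‖β‖) (h' : ‖g'.1 *ᵥ β‖ ≤ B * ‖β‖) :
    g' * g⁻¹ ∈ box (6 * A ^ 2 * B) := fun k l => by
  obtain ⟨i, hi⟩ := exists_norm_eq β
  have hA : 0 ≤ A := (abs_nonneg _).trans (hg 0 0)
  have hb : 0 < ‖β‖ := norm_pos_iff.2 hβ
  have hB : 0 ≤ B * ‖β‖ := (norm_nonneg _).trans h
  have b1 : ∀ m, |(g.1 *ᵥ β) m| ≤ B * ‖β‖ := fun m => (norm_le_pi_norm _ m).trans h
  have b2 : ∀ m, |(g'.1 *ᵥ β) m| ≤ B * ‖β‖ := fun m => (norm_le_pi_norm _ m).trans h'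
  have t : ∀ {x y z y' z' X Y Z : ℝ}, |x| ≤ X → |y| ≤ Y → |z| ≤ Z → |y'| ≤ Z → |z'| ≤ Y →
      |x * (y * z - y' * z')| ≤ 2 * (X * Y * Z) := fun {x y z y' z' X Y Z} a b c d e => by
    have := abs_sub (y * z) (y' * z')
    rw [abs_mul, abs_mul] at this
    have h1 : |y| * |z| ≤ Y * Z := mul_le_mul b c (abs_nonneg _) ((abs_nonneg _).trans b)
    have h2 : |y'| * |z'| ≤ Z * Y := mul_le_mul d e (abs_nonneg _) ((abs_nonneg _).trans d)
    rw [abs_mul]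
    calc |x| * |y * z - y' * z'| ≤ X * (2 * (Y * Z)) :=
          mul_le_mul a (by linarith) (abs_nonneg _) ((abs_nonneg _).trans a)
      _ = _ := by ring
  refine le_of_mul_le_mul_left ?_ hb
  conv_lhs => rw [← hi, ← abs_mul, mul_inv_entry]
  refine (abs_add_three _ _ _).trans ?_
  linarith [t (b2 k) (hg (l + 1) (i + 1)) (hg (l + 2) (i + 2)) (hg (l + 1) (i + 2))
      (hg (l + 2) (i + 1)),
    t (hg' k (i + 1)) (hg (l + 1) (i + 2)) (b1 (l + 2)) (b1 (l + 1)) (hg (l + 2) (i + 2)),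
    t (hg' k (i + 2)) (b1 (l + 1)) (hg (l + 2) (i + 1)) (hg (l + 1) (i + 1)) (b1 (l + 2))]

/-- **COUNT per direction**: for a family `φ a = k₁ · ι (θ a) · k₂`. -/
theorem count_line' {α : Type*} (s : Finset α) (θ : α → Γ) (hθ : Set.InjOn θ s) {k₁ k₂ : G}
    {R A B : ℝ} (hk : k₁ ∈ box R) {β : Fin 3 → ℝ} (hβ : β ≠ 0)
    (hs : ∀ a ∈ s, k₁ * ι (θ a) * k₂ ∈ box A ∧ ‖(k₁ * ι (θ a) * k₂).1 *ᵥ β‖ ≤ B * ‖β‖) :
    #s ≤ nbox (108 * R ^ 3 * A ^ 2 * B) := by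
  rcases s.eq_empty_or_nonempty with rfl | ⟨a₀, h₀⟩
  · simp
  refine card_le_nbox s (fun a => θ a * (θ a₀)⁻¹)
    (fun a ha b hb e => hθ ha hb (mul_right_cancel e)) fun a ha => ?_
  have := mul_mem_box (mul_mem_box (inv_mem_box hk)
    (mul_inv_mem_box hβ (hs a₀ h₀).1 (hs a ha).1 (hs a₀ h₀).2 (hs a ha).2)) hk
  rw [show 108 * R ^ 3 * A ^ 2 * B = 3 * (3 * (2 * R ^ 2) * (6 * A ^ 2 * B)) * R by ring]
  simpa [mul_assoc] using this

/-- **COUNT per direction.** -/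
theorem count_line {α : Type*} (s : Finset α) (θ : α → Γ) (hθ : Set.InjOn θ s) {A B : ℝ}
    {β : Fin 3 → ℝ} (hβ : β ≠ 0)
    (hs : ∀ a ∈ s, ι (θ a) ∈ box A ∧ ‖(ι (θ a)).1 *ᵥ β‖ ≤ B * ‖β‖) :
    #s ≤ nbox (6 * A ^ 2 * B) := by
  rcases s.eq_empty_or_nonempty with rfl | ⟨a₀, h₀⟩
  · simp
  refine card_le_nbox s (fun a => θ a * (θ a₀)⁻¹)
    (fun a ha b hb e => hθ ha hb (mul_right_cancel e)) fun a ha => ?_
  rw [map_mul, map_inv]
  exact mul_inv_mem_box hβ (hs a₀ h₀).1 (hs a ha).1 (hs a₀ h₀).2 (hs a ha).2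

/-- a `δ`-net of directions: `3 (2/δ + 3)²` vectors of norm `≥ 1` -/
theorem exists_net {δ : ℝ} (hδ : 0 < δ) : ∃ t : Finset (Fin 3 → ℝ),
    (#t : ℝ) ≤ 3 * (2 / δ + 3) ^ 2 ∧ (∀ b ∈ t, 1 ≤ ‖b‖) ∧
      ∀ β : Fin 3 → ℝ, β ≠ 0 → ∃ c : ℝ, |c| * ‖β‖ = 1 ∧ ∃ b ∈ t, ‖c • β - b‖ ≤ δ := by
  classical
  set M : ℤ := ⌈1 / δ⌉
  have hM : (M : ℝ) ≤ 1 / δ + 1 := (Int.ceil_lt_add_one _).le
  have hM' : 1 / δ ≤ M := Int.le_ceil _
  have hM0 : 0 ≤ M := Int.ceil_nonneg (by positivity)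
  let f : Fin 3 × ℤ × ℤ → Fin 3 → ℝ := fun p j =>
    if j = p.1 then 1 else if j = p.1 + 1 then δ * p.2.1 else δ * p.2.2
  refine ⟨(univ ×ˢ Icc (-M) M ×ˢ Icc (-M) M).image f, ?_, ?_, fun β hβ => ?_⟩
  · refine le_trans (Nat.cast_le.2 card_image_le) ?_
    have e : (#(Icc (-M) M) : ℝ) = 2 * M + 1 := by
      have : ((#(Icc (-M) M) : ℤ)) = 2 * M + 1 := by
        rw [Int.card_Icc, Int.toNat_of_nonneg (by omega)]; ring
      exact_mod_cast this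
    rw [card_product, card_product, card_univ, Fintype.card_fin]
    push_cast
    rw [e]
    have : (0 : ℝ) ≤ M := by exact_mod_cast hM0
    have h2 : 2 * (M : ℝ) + 1 ≤ 2 / δ + 3 := by
      rw [show 2 / δ = 2 * (1 / δ) by ring]; linarith
    nlinarith
  · intro b hb
    obtain ⟨p, -, rfl⟩ := mem_image.1 hb
    simpa [f] using norm_le_pi_norm (f p) p.1
  obtain ⟨i, hi⟩ := exists_norm_eq β
  have hb : 0 < ‖β‖ := norm_pos_iff.2 hβ
  have hi0 : β i ≠ 0 := fun h => by rw [h, abs_zero] at hi; exact hb.ne hi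
  have hc : ∀ j, |(β i)⁻¹ * β j| ≤ 1 := fun j => by
    rw [abs_mul, abs_inv, hi, inv_mul_le_iff₀ hb, mul_one]; exact norm_le_pi_norm β j
  have hfl : ∀ j, ⌊(β i)⁻¹ * β j / δ⌋ ∈ Icc (-M) M := fun j => by
    have h1 := abs_le.1 (hc j)
    have a : -(1 / δ) ≤ (β i)⁻¹ * β j / δ := by rw [← neg_div]; gcongr; exact h1.1
    have b : (β i)⁻¹ * β j / δ ≤ 1 / δ := by gcongr; exact h1.2
    refine mem_Icc.2 ⟨Int.le_floor.2 (by push_cast; linarith), ?_⟩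
    exact_mod_cast (Int.floor_le _).trans (b.trans hM')
  have hap : ∀ j, |(β i)⁻¹ * β j - δ * ⌊(β i)⁻¹ * β j / δ⌋| ≤ δ := fun j => by
    set x := (β i)⁻¹ * β j
    have a := Int.floor_le (x / δ)
    have b := Int.lt_floor_add_one (x / δ)
    rw [le_div_iff₀ hδ] at a
    rw [div_lt_iff₀ hδ] at b
    rw [abs_le]; constructor <;> nlinarith
  refine ⟨(β i)⁻¹, by rw [abs_inv, hi, inv_mul_cancel₀ hb.ne'],
    f (i, ⌊(β i)⁻¹ * β (i + 1) / δ⌋, ⌊(β i)⁻¹ * β (i + 2) / δ⌋),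
    mem_image_of_mem f (by simp only [mem_product, mem_univ, hfl, and_self]), ?_⟩
  refine (pi_norm_le_iff_of_nonneg hδ.le).2 fun j => ?_
  simp only [Pi.sub_apply, Pi.smul_apply, smul_eq_mul, f, Real.norm_eq_abs]
  split_ifs with h1 h2
  · rw [h1, inv_mul_cancel₀ hi0]; simpa using hδ.le
  · rw [h2]; exact hap _
  · rw [show j = i + 2 by omega]; exact hap _

/-- **COUNT, size of the window.** -/
theorem count_window {α : Type*} (s : Finset α) (θ : α → Γ) (hθ : Set.InjOn θ s) {A B : ℝ}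
    (hA : 0 < A) (hB : 0 < B)
    (hs : ∀ a ∈ s, ι (θ a) ∈ box A ∧ ∃ β : Fin 3 → ℝ, β ≠ 0 ∧ ‖(ι (θ a)).1 *ᵥ β‖ ≤ B * ‖β‖) :
    (#s : ℝ) ≤ 3 * (6 * A / B + 3) ^ 2 * nbox (12 * A ^ 2 * B) := by
  classical
  obtain ⟨t, ht, h1, hn⟩ := exists_net (δ := B / (3 * A)) (by positivity)
  have key : ∀ a ∈ s, ∃ b ∈ t, ‖(ι (θ a)).1 *ᵥ b‖ ≤ 2 * B * ‖b‖ := fun a ha => by
    obtain ⟨hb, β, hβ, h⟩ := hs a ha
    obtain ⟨c, hc, b, hbt, hd⟩ := hn β hβ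
    refine ⟨b, hbt, ?_⟩
    have e : (ι (θ a)).1 *ᵥ b = c • (ι (θ a)).1 *ᵥ β - (ι (θ a)).1 *ᵥ (c • β - b) := by
      rw [mulVec_sub, mulVec_smul, sub_sub_cancel]
    have a1 : ‖c • (ι (θ a)).1 *ᵥ β‖ ≤ B := by
      rw [norm_smul, Real.norm_eq_abs]
      calc |c| * _ ≤ |c| * (B * ‖β‖) := by gcongr
        _ = B := by rw [mul_left_comm, hc, mul_one]
    have a2 : ‖(ι (θ a)).1 *ᵥ (c • β - b)‖ ≤ B := by
      refine (norm_mulVec_le hb _).trans ?_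
      calc 3 * A * _ ≤ 3 * A * (B / (3 * A)) := by gcongr
        _ = B := by field_simp
    rw [e]
    nlinarith [norm_sub_le (c • (ι (θ a)).1 *ᵥ β) ((ι (θ a)).1 *ᵥ (c • β - b)), h1 b hbt]
  choose! f hf hf' using key
  have := card_le_mul_card_image_of_maps_to hf (nbox (12 * A ^ 2 * B)) fun b hb => by
    rw [show 12 * A ^ 2 * B = 6 * A ^ 2 * (2 * B) by ring]
    refine count_line _ θ (hθ.mono (coe_subset.2 (filter_subset _ _))) (β := b)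
      (norm_pos_iff.1 (lt_of_lt_of_le one_pos (h1 b hb))) fun a ha => ?_
    obtain ⟨ha', rfl⟩ := mem_filter.1 ha
    exact ⟨(hs a ha').1, hf' a ha'⟩
  rw [show 2 / (B / (3 * A)) = 6 * A / B by field_simp; norm_num] at ht
  calc (#s : ℝ) ≤ nbox (12 * A ^ 2 * B) * #t := by exact_mod_cast this
    _ ≤ nbox (12 * A ^ 2 * B) * (3 * (6 * A / B + 3) ^ 2) := by gcongr
    _ = _ := by ring

/-- a large entry of `g⁻¹` gives a contracted vector -/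
lemma exists_contracted {g : G} {B : ℝ} (hB : 0 ≤ B) {i j : Fin 3} (h : 1 ≤ B * |g⁻¹ i j|) :
    ∃ β : Fin 3 → ℝ, β ≠ 0 ∧ ‖g.1 *ᵥ β‖ ≤ B * ‖β‖ := by
  refine ⟨fun k => g⁻¹ k j, fun h0 => ?_, ?_⟩
  · have : g⁻¹ i j = 0 := congrFun h0 i
    rw [this] at h; norm_num at h
  · refine le_trans ?_ (h.trans (mul_le_mul_of_nonneg_left
      (norm_le_pi_norm (fun k => g⁻¹ k j) i) hB))
    refine (pi_norm_le_iff_of_nonneg zero_le_one).2 fun k => ?_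
    rw [mulVec_entry, ← mul_entry, mul_inv_cancel]
    show ‖(1 : Matrix (Fin 3) (Fin 3) ℝ) k j‖ ≤ 1
    rw [Matrix.one_apply]; split_ifs <;> simp

/-- **COUNT, size of the window**: `‖γ‖ ≤ A` and `‖γ⁻¹‖ ≥ 1 / B`. -/
theorem count_window' {α : Type*} (s : Finset α) (θ : α → Γ) (hθ : Set.InjOn θ s) {A B : ℝ}
    (hA : 0 < A) (hB : 0 < B)
    (hs : ∀ a ∈ s, ι (θ a) ∈ box A ∧ ∃ i j, 1 ≤ B * |(ι (θ a))⁻¹ i j|) :
    (#s : ℝ) ≤ 3 * (6 * A / B + 3) ^ 2 * nbox (12 * A ^ 2 * B) :=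
  count_window s θ hθ hA hB fun a ha =>
    ⟨(hs a ha).1, by obtain ⟨i, j, h⟩ := (hs a ha).2; exact exists_contracted hB.le h⟩

end Crest.Agent.N111
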