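import Crest.Agent.N111.Grp.ICC

/-!
# Row 111, KESTEN: ping-pong bound for convolution on `ℓ²(F)` and the moment method.

* `Bd g C`: the operator `Φ ↦ ∑ j, Φ (g j * ·)` has norm at most `C` on `ℓ²(F)`;
* `bd_of_pingpong`: the Powers / Akemann–Ostrand estimate;
* `moment`: if all words in operators `S j` have `ζ`-coefficients dominated by an `ℓ²` function
  of the group word and `∑ S j` is symmetric, then `|⟪ζ, ∑ S j ζ⟫| ≤ C ‖ζ‖²`;
* `blk i`, `pp`: ten elements of the `SL₂(ℤ)` block fixing the `i`-th axis, closed under inverses,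
  with `Bd pp 9`.
-/

set_option autoImplicit false

namespace Crest.Agent.N111.Kesten

open Finset Filter Topology
open scoped ComplexConjugate InnerProductSpace

section abstract

variable {F : Type*} [Group F] {J : Type*} [Fintype J]

/-- the averaging operator -/
def M (g : J → F) (Φ : F → ℝ) : F → ℝ := fun y => ∑ j, Φ (g j * y)

/-- `M g` has norm at most `C` on `ℓ²(F)` -/
def Bd (g : J → F) (C : ℝ) : Prop := ∀ Φ : F → ℝ, Summable (fun y => Φ y ^ 2) →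
  Summable (fun y => M g Φ y ^ 2) ∧ ∑' y, M g Φ y ^ 2 ≤ C ^ 2 * ∑' y, Φ y ^ 2

theorem Bd.mono {g : J → F} {C C' : ℝ} (h : Bd g C) (hC : C ^ 2 ≤ C' ^ 2) : Bd g C' := fun Φ hΦ =>
  ⟨(h Φ hΦ).1, (h Φ hΦ).2.trans
    (mul_le_mul_of_nonneg_right hC (tsum_nonneg fun _ => sq_nonneg _))⟩

open Classical in
theorem bd_of_pingpong (g : J → F) (X Y : J → Set F) (r : ℕ)
    (hX : ∀ y, #{j | y ∈ X j} ≤ r) (hY : ∀ y, #{j | y ∈ Y j} ≤ r)
    (h : ∀ j y, y ∉ X j → g j * y ∈ Y j) {C : ℝ} (hC : 4 * r * Fintype.card J ≤ C ^ 2) :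
    Bd g C := by
  intro Φ hΦ
  set N := ∑' y, Φ y ^ 2
  have hN : 0 ≤ N := tsum_nonneg fun _ => sq_nonneg _
  let ψ : J → F → ℝ := fun j z => if z ∈ Y j then Φ z ^ 2 else 0
  have hψ0 : ∀ j z, 0 ≤ ψ j z := fun j z => by simp only [ψ]; split_ifs <;> positivity
  have hψ : ∀ j, Summable (ψ j) := fun j => hΦ.of_nonneg_of_le (hψ0 j) fun z => by
    simp only [ψ]; split_ifs <;> simp [sq_nonneg]
  have s1 : HasSum (fun y => ∑ j, Φ (g j * y) ^ 2) (∑ _j : J, N) :=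
    hasSum_sum fun j _ => (Equiv.mulLeft (g j)).hasSum_iff.2 hΦ.hasSum
  have s2 : HasSum (fun y => ∑ j, ψ j (g j * y)) (∑ j, ∑' z, ψ j z) :=
    hasSum_sum fun j _ => (Equiv.mulLeft (g j)).hasSum_iff.2 (hψ j).hasSum
  have s3 : ∑ j, ∑' z, ψ j z ≤ r * N := by
    rw [← Summable.tsum_finsetSum fun j _ => hψ j, ← tsum_mul_left]
    refine Summable.tsum_le_tsum (fun z => ?_) (summable_sum fun j _ => hψ j) (hΦ.mul_left _)
    simp only [ψ]
    rw [← Finset.sum_filter, Finset.sum_const, nsmul_eq_mul]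
    exact mul_le_mul_of_nonneg_right (by exact_mod_cast hY z) (sq_nonneg _)
  have pt : ∀ y, M g Φ y ^ 2 ≤ 2 * r * ∑ j, Φ (g j * y) ^ 2
      + 2 * Fintype.card J * ∑ j, ψ j (g j * y) := fun y => by
    have e : M g Φ y = ∑ j with y ∈ X j, Φ (g j * y) + ∑ j with y ∉ X j, Φ (g j * y) :=
      (Finset.sum_filter_add_sum_filter_not _ _ _).symm
    have a1 : (∑ j with y ∈ X j, Φ (g j * y)) ^ 2 ≤ r * ∑ j, Φ (g j * y) ^ 2 :=
      sq_sum_le_card_mul_sum_sq.trans (mul_le_mul (by exact_mod_cast hX y)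
        (sum_le_sum_of_subset_of_nonneg (subset_univ _) fun _ _ _ => sq_nonneg _)
        (sum_nonneg fun _ _ => sq_nonneg _) (by positivity))
    have a2 : (∑ j with y ∉ X j, Φ (g j * y)) ^ 2 ≤ Fintype.card J * ∑ j, ψ j (g j * y) := by
      refine sq_sum_le_card_mul_sum_sq.trans (mul_le_mul (by exact_mod_cast card_le_univ _) ?_
        (sum_nonneg fun _ _ => sq_nonneg _) (by positivity))
      refine le_trans (le_of_eq (sum_congr rfl fun j hj => ?_))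
        (sum_le_sum_of_subset_of_nonneg (subset_univ _) fun j _ _ => hψ0 j _)
      simp only [ψ, if_pos (h j y (mem_filter.1 hj).2)]
    rw [e]
    nlinarith [sq_nonneg (∑ j with y ∈ X j, Φ (g j * y) - ∑ j with y ∉ X j, Φ (g j * y))]
  have s4 := (s1.mul_left (2 * r : ℝ)).add (s2.mul_left (2 * Fintype.card J : ℝ))
  have s5 : Summable (fun y => M g Φ y ^ 2) :=
    s4.summable.of_nonneg_of_le (fun _ => sq_nonneg _) pt
  refine ⟨s5, (hasSum_le pt s5.hasSum s4).trans ?_⟩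
  rw [sum_const, card_univ, nsmul_eq_mul]
  have : (0 : ℝ) ≤ Fintype.card J := by positivity
  nlinarith [mul_le_mul_of_nonneg_left s3 this, mul_le_mul_of_nonneg_right hC hN]

theorem Bd.iter {g : J → F} {C : ℝ} (h : Bd g C) {Φ : F → ℝ} (hΦ : Summable fun y => Φ y ^ 2)
    (n : ℕ) : Summable (fun y => (M g)^[n] Φ y ^ 2) ∧
      ∑' y, (M g)^[n] Φ y ^ 2 ≤ (C ^ n) ^ 2 * ∑' y, Φ y ^ 2 := by
  induction n with
  | zero => simpa using hΦ
  | succ n ih =>
    rw [Function.iterate_succ_apply']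
    refine ⟨(h _ ih.1).1, (h _ ih.1).2.trans ?_⟩
    calc C ^ 2 * ∑' y, (M g)^[n] Φ y ^ 2 ≤ C ^ 2 * ((C ^ n) ^ 2 * ∑' y, Φ y ^ 2) :=
          mul_le_mul_of_nonneg_left ih.2 (sq_nonneg _)
      _ = _ := by ring

theorem Bd.iter_le {g : J → F} {C : ℝ} (h : Bd g C) (hC : 0 ≤ C) {Φ : F → ℝ}
    (hΦ : Summable fun y => Φ y ^ 2) (n : ℕ) (y : F) :
    (M g)^[n] Φ y ≤ C ^ n * √(∑' y, Φ y ^ 2) := by
  obtain ⟨a, b⟩ := h.iter hΦ n
  refine le_trans (le_abs_self _) (abs_le_of_sq_le_sq' ?_ (by positivity)).2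
  rw [sq_abs, mul_pow, Real.sq_sqrt (tsum_nonneg fun _ => sq_nonneg _)]
  exact (a.le_tsum y fun _ _ => sq_nonneg _).trans b

variable {V : Type*} [AddCommGroup V] [Module ℂ V]

/-- words of length `n`, summed -/
theorem pow_le (S : J → Module.End ℂ V) (g : J → F) (ζ : V) (n : ℕ) :
    ∀ (l : V →ₗ[ℂ] ℂ) (Φ : F → ℝ), (∀ w : List J, ‖l ((w.map S).prod ζ)‖ ≤ Φ (w.map g).prod) →
      ‖l (((∑ j, S j) ^ n) ζ)‖ ≤ (M g)^[n] Φ 1 := by
  induction n with
  | zero => intro l Φ h; simpa using h []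
  | succ n ih =>
    intro l Φ h
    rw [Function.iterate_succ_apply, pow_succ', Module.End.mul_apply]
    refine ih (l ∘ₗ ∑ j, S j) (M g Φ) fun w => ?_
    rw [LinearMap.comp_apply, LinearMap.sum_apply, map_sum]
    exact (norm_sum_le _ _).trans (sum_le_sum fun j _ => by simpa using h (j :: w))

/-- iterated Cauchy–Schwarz -/
theorem le_of_moments (B : V →ₗ⋆[ℂ] V →ₗ[ℂ] ℂ) (hpos : ∀ x, 0 ≤ (B x x).re)
    (hsym : ∀ x y, conj (B y x) = B x y) (T : Module.End ℂ V) (hT : ∀ x y, B (T x) y = B x (T y))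
    (ζ : V) {C K : ℝ} (hC : 0 ≤ C) (h : ∀ n, ‖B ζ ((T ^ n) ζ)‖ ≤ C ^ n * K) :
    ‖B ζ (T ζ)‖ ≤ C * (B ζ ζ).re := by
  let c : PreInnerProductSpace.Core ℂ V :=
    { inner := fun x y => B x y
      conj_inner_symm := hsym
      re_inner_nonneg := hpos
      add_left := fun x y z => by simp
      smul_left := fun x y r => by simp }
  have cs : ∀ x y, ‖B x y‖ ^ 2 ≤ (B x x).re * (B y y).re := fun x y => by
    have := @InnerProductSpace.Core.inner_mul_inner_self_le ℂ V _ _ _ c x y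
    change ‖B x y‖ * ‖B y x‖ ≤ (B x x).re * (B y y).re at this
    rwa [← hsym y x, Complex.norm_conj, ← sq] at this
  have hTn : ∀ n x y, B ((T ^ n) x) y = B x ((T ^ n) y) := fun n => by
    induction n with
    | zero => simp
    | succ n ih =>
      intro x y
      rw [pow_succ, Module.End.mul_apply, ih, hT, ← Module.End.mul_apply, ← pow_succ', pow_succ]
  set a := (B ζ ζ).re
  have ha : 0 ≤ a := hpos ζ
  have st : ∀ m, ‖B ζ ((T ^ m) ζ)‖ ^ 2 ≤ a * ‖B ζ ((T ^ (2 * m)) ζ)‖ := fun m => by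
    refine (cs _ _).trans (mul_le_mul_of_nonneg_left ?_ ha)
    rw [hTn, ← Module.End.mul_apply, ← pow_add, two_mul]
    exact Complex.re_le_norm _
  have it : ∀ k, a * ‖B ζ (T ζ)‖ ^ 2 ^ k ≤ a ^ 2 ^ k * ‖B ζ ((T ^ 2 ^ k) ζ)‖ := fun k => by
    induction k with
    | zero => simp
    | succ k ih =>
      rcases ha.eq_or_lt with h0 | h0
      · simp [← h0]
      refine le_of_mul_le_mul_left ?_ h0
      calc a * (a * ‖B ζ (T ζ)‖ ^ 2 ^ (k + 1)) = (a * ‖B ζ (T ζ)‖ ^ 2 ^ k) ^ 2 := by ring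
        _ ≤ (a ^ 2 ^ k * ‖B ζ ((T ^ 2 ^ k) ζ)‖) ^ 2 := by gcongr
        _ = (a ^ 2 ^ k) ^ 2 * ‖B ζ ((T ^ 2 ^ k) ζ)‖ ^ 2 := by ring
        _ ≤ (a ^ 2 ^ k) ^ 2 * (a * ‖B ζ ((T ^ (2 * 2 ^ k)) ζ)‖) := by gcongr; exact st _
        _ = _ := by rw [pow_succ' 2 k]; ring
  by_contra hlt
  rw [not_le] at hlt
  set x := ‖B ζ (T ζ)‖
  have hx : 0 < x := lt_of_le_of_lt (by positivity) hlt
  have ha' : 0 < a := by
    refine ha.lt_of_ne fun h0 => ?_
    have := st 1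
    rw [← h0, zero_mul, pow_one] at this
    nlinarith
  have hq : C * a / x < 1 := (div_lt_one hx).2 hlt
  have lim : Tendsto (fun k : ℕ => (C * a / x) ^ 2 ^ k * K) atTop (𝓝 (0 * K)) :=
    ((tendsto_pow_atTop_nhds_zero_of_lt_one (by positivity) hq).comp
      (tendsto_pow_atTop_atTop_of_one_lt (one_lt_two (α := ℕ)))).mul_const K
  rw [zero_mul] at lim
  refine absurd (ge_of_tendsto' lim fun k => ?_) (not_le.2 ha')
  rw [div_pow, div_mul_eq_mul_div, le_div_iff₀ (by positivity), mul_pow]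
  refine (it k).trans ?_
  calc a ^ 2 ^ k * ‖B ζ ((T ^ 2 ^ k) ζ)‖ ≤ a ^ 2 ^ k * (C ^ 2 ^ k * K) := by gcongr; exact h _
    _ = _ := by ring

/-- **The moment method**, for a positive semidefinite Hermitian form. -/
theorem moment (B : V →ₗ⋆[ℂ] V →ₗ[ℂ] ℂ) (hpos : ∀ x, 0 ≤ (B x x).re)
    (hsym : ∀ x y, conj (B y x) = B x y) (S : J → Module.End ℂ V)
    (hT : ∀ x y, B ((∑ j, S j) x) y = B x ((∑ j, S j) y)) (ζ : V) {g : J → F} {C : ℝ}
    (hC : 0 ≤ C) (hg : Bd g C) {Φ : F → ℝ} (hΦ : Summable fun y => Φ y ^ 2)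
    (h : ∀ w : List J, ‖B ζ ((w.map S).prod ζ)‖ ≤ Φ (w.map g).prod) :
    ‖B ζ ((∑ j, S j) ζ)‖ ≤ C * (B ζ ζ).re :=
  le_of_moments B hpos hsym _ hT ζ hC fun n =>
    (pow_le S g ζ n (B ζ) Φ h).trans (hg.iter_le hC hΦ n 1)

/-- **The moment method** in a (semi-)inner product space. -/
theorem moment_inner {K : Type*} [SeminormedAddCommGroup K] [InnerProductSpace ℂ K]
    (S : J → Module.End ℂ K) (hT : ∀ x y, ⟪(∑ j, S j) x, y⟫_ℂ = ⟪x, (∑ j, S j) y⟫_ℂ) (ζ : K)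
    {g : J → F} {C : ℝ} (hC : 0 ≤ C) (hg : Bd g C) {Φ : F → ℝ} (hΦ : Summable fun y => Φ y ^ 2)
    (h : ∀ w : List J, ‖⟪ζ, (w.map S).prod ζ⟫_ℂ‖ ≤ Φ (w.map g).prod) :
    ‖⟪ζ, (∑ j, S j) ζ⟫_ℂ‖ ≤ C * ‖ζ‖ ^ 2 := by
  have := moment (innerₛₗ ℂ) (fun x => inner_self_nonneg (𝕜 := ℂ))
    (fun x y => inner_conj_symm x y) S hT ζ hC hg hΦ h
  rwa [innerₛₗ_apply_apply, innerₛₗ_apply_apply,
    show (⟪ζ, ζ⟫_ℂ).re = ‖ζ‖ ^ 2 from inner_self_eq_norm_sq (𝕜 := ℂ) ζ] at this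

/-- **The moment method** for bounded operators. -/
theorem moment_clm {K : Type*} [SeminormedAddCommGroup K] [InnerProductSpace ℂ K]
    (S : J → K →L[ℂ] K) (hT : ∀ x y, ⟪(∑ j, S j) x, y⟫_ℂ = ⟪x, (∑ j, S j) y⟫_ℂ) (ζ : K)
    {g : J → F} {C : ℝ} (hC : 0 ≤ C) (hg : Bd g C) {Φ : F → ℝ} (hΦ : Summable fun y => Φ y ^ 2)
    (h : ∀ w : List J, ‖⟪ζ, (w.map S).prod ζ⟫_ℂ‖ ≤ Φ (w.map g).prod) :
    ‖⟪ζ, (∑ j, S j) ζ⟫_ℂ‖ ≤ C * ‖ζ‖ ^ 2 := by
  have e : ∀ x, (∑ j, (S j : Module.End ℂ K)) x = (∑ j, S j) x := fun x => by simp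
  have e2 : ∀ (w : List J) x, (w.map fun j => (S j : Module.End ℂ K)).prod x
      = (w.map S).prod x := fun w => by
    induction w with
    | nil => simp
    | cons j w ih => intro x; simp [ih]
  rw [← e]
  exact moment_inner _ (fun x y => by rw [e, e, hT]) ζ hC hg hΦ fun w => by rw [e2]; exact h w

end abstract

/-! ### ping-pong in an `SL₂(ℤ)` block -/

section concrete

variable {j k : Fin 3} (hjk : j ≠ k)

/-- the subgroup generated by the integral elementary matrices in the `(j, k)` plane -/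
def blk : Subgroup Γ :=
  Subgroup.closure (Set.range (tz hjk) ∪ Set.range (tz hjk.symm))

lemma tz_mem_blk (b : ℤ) : tz hjk b ∈ blk hjk := Subgroup.subset_closure (Or.inl ⟨b, rfl⟩)
lemma tz_mem_blk' (b : ℤ) : tz hjk.symm b ∈ blk hjk := Subgroup.subset_closure (Or.inr ⟨b, rfl⟩)

/-- elements of the block fix the third row and column -/
lemma blk_third {γ : Γ} (hγ : γ ∈ blk hjk) {i : Fin 3} (hij : i ≠ j) (hik : i ≠ k) (l : Fin 3) :
    ι γ i l = (if i = l then 1 else 0) ∧ ι γ l i = (if l = i then 1 else 0) := by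
  induction hγ using Subgroup.closure_induction'' generalizing l with
  | mem x hx =>
    rcases hx with ⟨b, rfl⟩ | ⟨b, rfl⟩ <;> simp [tv_apply, hij.symm, hik.symm]
  | inv_mem x hx =>
    rcases hx with ⟨b, rfl⟩ | ⟨b, rfl⟩ <;> simp [tz_inv, tv_apply, hij.symm, hik.symm]
  | one => simp [Matrix.one_apply]
  | mul x y _ _ hx hy =>
    rw [map_mul, mul_entry, mul_entry, (hx 0).1, (hx 1).1, (hx 2).1, (hy 0).2, (hy 1).2, (hy 2).2]
    have h1 := (hy l).1
    have h2 := (hx l).2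
    fin_cases i <;> simp_all

/-- the block commutes with every element commuting with the two root groups -/
lemma blk_comm {γ : Γ} (hγ : γ ∈ blk hjk) {a : G} (h1 : ∀ b, Commute (tv hjk b) a)
    (h2 : ∀ b, Commute (tv hjk.symm b) a) : Commute (ι γ) a := by
  induction hγ using Subgroup.closure_induction with
  | mem x hx => rcases hx with ⟨b, rfl⟩ | ⟨b, rfl⟩ <;> simp [h1, h2]
  | one => simp
  | mul x y _ _ hx hy => rw [map_mul]; exact hx.mul_left hy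
  | inv x _ hx => rw [map_inv]; exact hx.inv_left

lemma blk_comm_dg {γ : Γ} (hγ : γ ∈ blk hjk) {a b : ℝ} (h : dgl a b j = dgl a b k) :
    Commute (ι γ) (dg a b) :=
  blk_comm hjk hγ (fun x => by
      have := dg_conj_tv a b hjk x
      rw [h, sub_self, Real.exp_zero, one_mul, mul_inv_eq_iff_eq_mul] at this
      exact this.symm) fun x => by
    have := dg_conj_tv a b hjk.symm x
    rw [h, sub_self, Real.exp_zero, one_mul, mul_inv_eq_iff_eq_mul] at this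
    exact this.symm

/-- the ten ping-pong elements `l_m u^{± 5} l_m⁻¹` -/
def ppΓ (p : Fin 5 × Bool) : Γ :=
  tz hjk.symm (p.1 : ℕ) * tz hjk (if p.2 then 5 else -5) * tz hjk.symm (-(p.1 : ℕ))

/-- the ten ping-pong elements, in the block -/
def pp (p : Fin 5 × Bool) : blk hjk :=
  ⟨ppΓ hjk p, mul_mem (mul_mem (tz_mem_blk' hjk _) (tz_mem_blk hjk _)) (tz_mem_blk' hjk _)⟩

lemma ppΓ_inv (p : Fin 5 × Bool) : (ppΓ hjk p)⁻¹ = ppΓ hjk (p.1, !p.2) := by
  obtain ⟨m, b⟩ := p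
  cases b <;> simp [ppΓ, tz_inv, mul_assoc]

lemma pp_inv (p : Fin 5 × Bool) : (pp hjk p)⁻¹ = pp hjk (p.1, !p.2) :=
  Subtype.ext (ppΓ_inv hjk p)

omit hjk in
lemma col_ne_zero (g : G) {i j k : Fin 3} (hjk : j ≠ k) (hji : j ≠ i) (hik : i ≠ k)
    (h1 : g j j = 0) (h2 : g k j = 0) (h3 : g i j = 0) : False := by
  have hd := det_entry g
  have : ∀ l, g l j = 0 := fun l => by
    have : l = j ∨ l = k ∨ l = i := by omega
    rcases this with rfl | rfl | rfl <;> assumption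
  fin_cases j <;> simp at this <;> simp [this] at hd

open Classical in
theorem bd_pp : Bd (pp hjk) 9 := by
  obtain ⟨i, hji, hik⟩ := exists_third hjk
  let X : Fin 5 × Bool → Set (blk hjk) := fun p =>
    {γ | 2 * |ι γ k j - (p.1 : ℕ) * ι γ j j| < |ι γ j j|}
  have hX : ∀ y, #{p | y ∈ X p} ≤ 2 := fun y => by
    rcases (univ.filter fun p => y ∈ X p).eq_empty_or_nonempty with h | ⟨p, hp⟩
    · simp [h]
    refine (card_le_card (t := {(p.1, true), (p.1, false)}) fun q hq => ?_).trans card_le_two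
    have h1 : 2 * |ι y k j - (p.1 : ℕ) * ι y j j| < |ι y j j| := (mem_filter.1 hp).2
    have h2 : 2 * |ι y k j - (q.1 : ℕ) * ι y j j| < |ι y j j| := (mem_filter.1 hq).2
    have h3 : |((p.1 : ℕ) : ℝ) - (q.1 : ℕ)| * |ι y j j| < 1 * |ι y j j| := by
      rw [← abs_mul]
      have := abs_sub (ι y k j - (q.1 : ℕ) * ι y j j) (ι y k j - (p.1 : ℕ) * ι y j j)
      rw [show (ι y k j - (q.1 : ℕ) * ι y j j) - (ι y k j - (p.1 : ℕ) * ι y j j)
        = (((p.1 : ℕ) : ℝ) - (q.1 : ℕ)) * ι y j j by ring] at this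
      linarith
    have h4 := lt_of_mul_lt_mul_right h3 (abs_nonneg _)
    have h5 : |((p.1 : ℕ) : ℤ) - (q.1 : ℕ)| < 1 := by exact_mod_cast h4
    have h6 : q.1 = p.1 := Fin.ext (by rw [abs_lt] at h5; omega)
    obtain ⟨m, b⟩ := q
    cases b <;> simp [← h6]
  refine bd_of_pingpong _ X X 2 hX hX (fun p y hy => ?_) (by simp; norm_num)
  have hy' : |ι y j j| ≤ 2 * |ι y k j - (p.1 : ℕ) * ι y j j| := not_lt.1 hy
  have h0 : ι y k j - (p.1 : ℕ) * ι y j j ≠ 0 := fun h => by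
    rw [h, abs_zero, mul_zero, abs_nonpos_iff] at hy'
    rw [hy', mul_zero, sub_zero] at h
    have h3 := (blk_third hjk y.2 hji.symm hik j).1
    rw [if_neg hji.symm] at h3
    exact col_ne_zero (ι y) hjk hji hik hy' h h3
  show 2 * |ι (ppΓ hjk p * y) k j - (p.1 : ℕ) * ι (ppΓ hjk p * y) j j| < |ι (ppΓ hjk p * y) j j|
  simp only [ppΓ, map_mul, ι_tz, mul_assoc, tv_mul_apply, if_true, if_neg hjk, if_neg hjk.symm,
    add_zero]
  set x := ι y j j
  set z := ι y k j - (p.1 : ℕ) * x with hz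
  have e : ι y k j + ((-(p.1 : ℕ) : ℤ) : ℝ) * x = z := by push_cast; ring
  rw [e]
  push_cast
  rw [add_sub_cancel_right]
  have hz0 : 0 < |z| := abs_pos.2 h0
  have : ∀ c : ℝ, |c| = 5 → 2 * |z| < |x + c * z| := fun c hc => by
    have := abs_sub (x + c * z) x
    rw [add_sub_cancel_left, abs_mul, hc] at this
    linarith
  exact this _ (by split_ifs <;> norm_num)

end concrete

end Crest.Agent.N111.Kesten
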